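import Mathlib
import Vale.Agent.Lib.P013.Linear

/-! # P013: Jacobsthal's function for integers composed of the primes of a sparse set -/

namespace Vale.Agent.Results.P013.ConvergentPrimes

open Vale.Agent.P013

/-- (1) For every set `P` with `∑ 1/p < ∞` (over `p ∈ P`) there is a constant `C` such that
`j(n) ≤ C ω(n)` for all `n > 1` all of whose prime divisors lie in `P`.
(2) For every `n ≥ 1` and every set `S` of prime divisors of `n` such that the sum `σ` of the
reciprocals of the other prime divisors is less than one,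
`j(n) ≤ (∏ p ∈ S, p) (r / (1 - σ) + 1)`, `r` the number of the other prime divisors. -/
theorem result :
    (∀ P : Set ℕ, Summable (P.indicator fun p : ℕ => (1 : ℝ) / p) →
      ∃ C : ℝ, ∀ n : ℕ, 1 < n → (∀ p, p.Prime → p ∣ n → p ∈ P) →
        (jacobsthal n : ℝ) ≤ C * n.primeFactors.card) ∧
    (∀ n : ℕ, n ≠ 0 → ∀ S ⊆ n.primeFactors,
      ∑ p ∈ n.primeFactors \ S, (1 : ℝ) / p < 1 →
      (jacobsthal n : ℝ) ≤ (∏ p ∈ S, p : ℕ) *
        ((n.primeFactors \ S).card / (1 - ∑ p ∈ n.primeFactors \ S, (1 : ℝ) / p) + 1)) :=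
  ⟨linear_bound, fun _ hn _ hS hσ => jacobsthal_le hn hS hσ⟩

end Vale.Agent.Results.P013.ConvergentPrimes
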