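import Vale.Agent.Lib.P013.Main

/-!
# P013: Jacobsthal's function of integers without medium sized prime factors

`jac n` is Jacobsthal's function, `om n` the number of distinct prime divisors of `n`.
-/

namespace Vale.Agent.Results.P013.NoMediumPrimes

open Vale.Agent.P013

/-- (1) For each `δ > 1/e`, `j(n) ≤ C ω(n) ∏ p` for all `n > 1`, the product over the prime divisors
`p ≤ ω(n)^δ` of `n`. (2) For all `ε > 0` and `δ > 1/e` there are `c, C > 0` with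
`j(n) ≤ C ω(n)^(1+ε)` for every `n > 1` without prime divisors in `(c log ω(n), ω(n)^δ]`.
(3) If `S` is a set of primes with convergent sum of reciprocals, then `j(n) ≤ C ω(n)` for every
`n > 1` all of whose prime divisors are in `S`. -/
theorem result :
    (∀ δ : ℝ, Real.exp (-1) < δ → ∃ C : ℝ, 0 < C ∧ ∀ n : ℕ, 1 < n →
      (jac n : ℝ) ≤ C * om n *
        (∏ p ∈ n.primeFactors.filter (fun p : ℕ => (p : ℝ) ≤ (om n : ℝ) ^ δ), p : ℕ)) ∧
    (∀ ε δ : ℝ, 0 < ε → Real.exp (-1) < δ → ∃ c C : ℝ, 0 < c ∧ 0 < C ∧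
      ∀ n : ℕ, 1 < n → (∀ p : ℕ, p.Prime → p ∣ n → (p : ℝ) ≤ c * Real.log (om n) ∨
        (om n : ℝ) ^ δ < p) → (jac n : ℝ) ≤ C * (om n : ℝ) ^ (1 + ε)) ∧
    (∀ S : Set ℕ, (∀ p ∈ S, p.Prime) → Summable (fun p : S => 1 / ((p : ℕ) : ℝ)) →
      ∃ C : ℝ, 0 < C ∧ ∀ n : ℕ, 1 < n → (∀ p : ℕ, p.Prime → p ∣ n → p ∈ S) →
        (jac n : ℝ) ≤ C * om n) :=
  ⟨star, medium, sparse⟩

end Vale.Agent.Results.P013.NoMediumPrimes
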